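import Vale.Agent.P181.TL.Defs

set_option autoImplicit false

namespace Vale.Agent.P181.TL.H550

/-! # P181, line TL, block T5b (`SizeB`): the sizes and the heads -/

/-- balanced parts -/
theorem sum_bal (H P : ℕ) (hH : 0 < H) :
    ∑ h : Fin H, (P / H + if (h : ℕ) < P % H then 1 else 0) = P := by
  rw [Finset.sum_add_distrib]
  have h1 : ∑ _h : Fin H, P / H = H * (P / H) := by simp
  have h2 : (∑ h : Fin H, if (h : ℕ) < P % H then 1 else 0) = P % H := by
    rw [Fin.sum_univ_eq_sum_range (fun i => if i < P % H then 1 else 0) H,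
      Finset.sum_ite, Finset.sum_const_zero, add_zero, Finset.sum_const, smul_eq_mul, mul_one]
    have : (Finset.range H).filter (fun i => i < P % H) = Finset.range (P % H) := by
      ext i
      simp only [Finset.mem_filter, Finset.mem_range]
      exact ⟨fun h => h.2, fun h => ⟨h.trans (Nat.mod_lt _ hH), h⟩⟩
    rw [this, Finset.card_range]
  rw [h1, h2]
  exact Nat.div_add_mod P H

open scoped Classical in
theorem size (a b q m w M : ℕ) (ha : 0 < a) (hq : 1 ≤ q) (_hm : 1 ≤ m) (hM : 1 ≤ M)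
    (h1 : 2 * (M + q * (a / m) + q + 1) ≤ a)
    (h2 : q * a * (M + q * (a / m) + q) + 4 * M * q * a ≤ w)
    (h3 : 3 * q * a + 3 * (w / a) + 3 ≤ b) :
    ∃ (H : ℕ) (s : Fin a × Fin q → ℕ) (p : Fin H → ℕ) (l : Fin a × Fin q → Fin H),
    (∀ j, M < s j) ∧ (∀ j h, s j < p h) ∧ (∀ h, p h ≤ a) ∧ 3 * (a * q + H) ≤ b ∧
    ∑ j, s j + ∑ h, p h = w ∧
    (∀ j j' : Fin a × Fin q, s j = s j' → (j.1 : ℕ) / m = (j'.1 : ℕ) / m ∧ j.2 = j'.2) ∧
    ∀ h, (Finset.univ.filter fun j => l j = h).card * M ≤ p h := by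
  set U := M + q * (a / m) + q with hU
  set s : Fin a × Fin q → ℕ := fun j => M + 1 + q * ((j.1 : ℕ) / m) + (j.2 : ℕ) with hs
  have sle : ∀ j, s j ≤ U := by
    rintro ⟨i, r⟩
    have hi : (i : ℕ) / m ≤ a / m := Nat.div_le_div_right i.2.le
    have := Nat.mul_le_mul_left q hi
    have := r.2
    simp only [hs, hU]
    omega
  have hS : ∑ j, s j ≤ q * a * U := by
    refine (Finset.sum_le_card_nsmul _ _ U fun j _ => sle j).trans ?_
    simp [Fintype.card_prod, mul_comm q a]
  set S := ∑ j, s j with hSd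
  set P := w - S with hP
  have hPS : S + P = w := by omega
  have hP4 : 4 * M * q * a ≤ P := by omega
  set H := P / a + 1 with hH
  have hH0 : 0 < H := Nat.succ_pos _
  have hPa : 4 * M * q ≤ P / a := by
    rw [Nat.le_div_iff_mul_le ha]; exact hP4
  have hMq : 1 ≤ M * q := Nat.one_le_iff_ne_zero.2 (by positivity)
  have hH2 : 2 ≤ H := by
    have : 4 * M * q = 4 * (M * q) := by ring
    omega
  have hPlt : P < a * H := by
    have := Nat.lt_mul_div_succ P ha
    simpa [hH] using this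
  have hPge : a * (H - 1) ≤ P := by
    have := Nat.mul_div_le P a
    simpa [hH] using this
  -- any x with 2 x ≤ a satisfies x ≤ P / H
  have key : ∀ x, 2 * x ≤ a → x ≤ P / H := by
    intro x hx
    rw [Nat.le_div_iff_mul_le hH0]
    calc x * H ≤ x * (2 * (H - 1)) := Nat.mul_le_mul_left _ (by omega)
      _ = 2 * x * (H - 1) := by ring
      _ ≤ a * (H - 1) := Nat.mul_le_mul_right _ hx
      _ ≤ P := hPge
  set g := a / (2 * M) with hg
  have hgM : 2 * (g * M) ≤ a := by
    have := Nat.mul_div_le a (2 * M)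
    calc 2 * (g * M) = 2 * M * (a / (2 * M)) := by rw [hg]; ring
      _ ≤ a := this
  have hg1 : 1 ≤ g := by
    rw [hg, Nat.le_div_iff_mul_le (by omega)]
    omega
  have hga : a ≤ g * (4 * M) := by
    have h := Nat.lt_mul_div_succ a (show 0 < 2 * M by omega)
    rw [← hg] at h
    calc a ≤ 2 * M * (g + 1) := h.le
      _ ≤ 2 * M * (2 * g) := Nat.mul_le_mul_left _ (by omega)
      _ = g * (4 * M) := by ring
  have hgH : q * a ≤ g * H := by
    calc q * a ≤ q * (g * (4 * M)) := Nat.mul_le_mul_left _ hga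
      _ = g * (4 * M * q) := by ring
      _ ≤ g * H := Nat.mul_le_mul_left _ (by omega)
  have hl : ∀ j : Fin a × Fin q, (q * (j.1 : ℕ) + (j.2 : ℕ)) / g < H := by
    rintro ⟨i, r⟩
    rw [Nat.div_lt_iff_lt_mul (by omega)]
    have hi : (i : ℕ) + 1 ≤ a := i.2
    have := Nat.mul_le_mul_left q hi
    have := r.2
    have e : q * ((i : ℕ) + 1) = q * i + q := by ring
    have e2 : H * g = g * H := by ring
    simp only
    omega
  refine ⟨H, s, fun h => P / H + if (h : ℕ) < P % H then 1 else 0,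
    fun j => ⟨(q * (j.1 : ℕ) + (j.2 : ℕ)) / g, hl j⟩, ?_, ?_, ?_, ?_, ?_, ?_, ?_⟩
  · rintro ⟨i, r⟩
    simp only [hs]
    omega
  · intro j h
    have := sle j
    have := key (U + 1) h1
    show s j < P / H + _
    omega
  · intro h
    have : P / H < a := by
      rw [Nat.div_lt_iff_lt_mul hH0]; exact hPlt
    show P / H + _ ≤ a
    split_ifs <;> omega
  · have : P / a ≤ w / a := Nat.div_le_div_right (by omega)
    have e : 3 * (a * q + H) = 3 * q * a + 3 * (P / a) + 3 := by rw [hH]; ring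
    rw [e]
    omega
  · rw [sum_bal H P hH0]
    exact hPS
  · rintro ⟨i, r⟩ ⟨i', r'⟩ h
    simp only [hs] at h
    have hr := r.2
    have hr' := r'.2
    have h' : q * ((i : ℕ) / m) + (r : ℕ) = q * ((i' : ℕ) / m) + (r' : ℕ) := by omega
    have hq0 : 0 < q := hq
    have e1 : (q * ((i : ℕ) / m) + (r : ℕ)) / q = (i : ℕ) / m := by
      rw [Nat.mul_add_div hq0, Nat.div_eq_of_lt hr, add_zero]
    have e2 : (q * ((i' : ℕ) / m) + (r' : ℕ)) / q = (i' : ℕ) / m := by
      rw [Nat.mul_add_div hq0, Nat.div_eq_of_lt hr', add_zero]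
    have e : (i : ℕ) / m = (i' : ℕ) / m := by rw [← e1, ← e2, h']
    refine ⟨e, Fin.ext ?_⟩
    rw [e] at h'
    show (r : ℕ) = r'
    omega
  · intro h
    have hc : (Finset.univ.filter fun j : Fin a × Fin q =>
        (⟨(q * (j.1 : ℕ) + (j.2 : ℕ)) / g, hl j⟩ : Fin H) = h).card ≤ g := by
      have : (Finset.univ.filter fun j : Fin a × Fin q =>
          (⟨(q * (j.1 : ℕ) + (j.2 : ℕ)) / g, hl j⟩ : Fin H) = h).card ≤
          (Finset.Ico (g * (h : ℕ)) (g * (h : ℕ) + g)).card := by
        refine Finset.card_le_card_of_injOn (fun j => q * (j.1 : ℕ) + (j.2 : ℕ)) ?_ ?_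
        · intro j hj
          have hj' : (q * (j.1 : ℕ) + (j.2 : ℕ)) / g = h := by
            have := (Finset.mem_filter.1 (Finset.mem_coe.1 hj)).2
            exact congrArg Fin.val this
          simp only [Finset.coe_Ico, Set.mem_Ico]
          have := Nat.div_add_mod (q * (j.1 : ℕ) + (j.2 : ℕ)) g
          have h2 := Nat.mod_lt (q * (j.1 : ℕ) + (j.2 : ℕ)) (show g > 0 by omega)
          rw [hj'] at this
          omega
        · rintro ⟨i, r⟩ _ ⟨i', r'⟩ _ h
          simp only at h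
          have hr := r.2
          have hr' := r'.2
          have hq0 : 0 < q := hq
          have e1 : (q * (i : ℕ) + (r : ℕ)) / q = (i : ℕ) := by
            rw [Nat.mul_add_div hq0, Nat.div_eq_of_lt hr, add_zero]
          have e2 : (q * (i' : ℕ) + (r' : ℕ)) / q = (i' : ℕ) := by
            rw [Nat.mul_add_div hq0, Nat.div_eq_of_lt hr', add_zero]
          have e : (i : ℕ) = i' := by rw [← e1, ← e2, h]
          rw [e] at h
          have e3 : (r : ℕ) = r' := by omega
          rw [Prod.mk.injEq]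
          exact ⟨Fin.ext e, Fin.ext e3⟩
      refine this.trans ?_
      simp
    calc _ ≤ g * M := Nat.mul_le_mul_right _ hc
      _ ≤ P / H := key _ hgM
      _ ≤ _ := Nat.le_add_right _ _

/-- **(T5b)** -/
theorem sizeB : SizeB := fun a b q m w M ha hq hm hM h1 h2 h3 =>
  size a b q m w M ha hq hm hM h1 h2 h3

end Vale.Agent.P181.TL.H550
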